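import Vale.Agent.P066.Lab.Basic

/-!
# Permutations of blocks: block swaps, orbits of colourings, standard colourings, sign of `PU`
-/

set_option autoImplicit false

open Finset MvPolynomial

namespace Vale.Agent.P066.Lab

noncomputable section

/-! ### (T1) block swap -/

theorem exists_blockSwap {X S : Type} [Fintype X] [DecidableEq X] [Fintype S] [DecidableEq S]
    (i1 i2 : X → S) (h1 : Function.Injective i1) (h2 : Function.Injective i2)
    (hd : ∀ x y, i1 x ≠ i2 y) :
    ∃ g : Equiv.Perm S, (∀ x, g (i1 x) = i2 x) ∧ (∀ x, g (i2 x) = i1 x) ∧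
      (∀ s, (∀ x, i1 x ≠ s) → (∀ x, i2 x ≠ s) → g s = s) ∧
      Equiv.Perm.sign g = (-1) ^ Fintype.card X := by
  classical
  have key : ∀ T : Finset X, ∃ g : Equiv.Perm S, (∀ x ∈ T, g (i1 x) = i2 x) ∧
      (∀ x ∈ T, g (i2 x) = i1 x) ∧
      (∀ s, (∀ x ∈ T, i1 x ≠ s) → (∀ x ∈ T, i2 x ≠ s) → g s = s) ∧
      Equiv.Perm.sign g = (-1) ^ T.card := by
    intro T
    induction T using Finset.induction_on with
    | empty => exact ⟨1, by simp, by simp, by simp, by simp⟩
    | insert x0 T hx0 ih =>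
      obtain ⟨g, hg1, hg2, hg3, hg4⟩ := ih
      have hoff1 : g (i1 x0) = i1 x0 := by
        apply hg3
        · intro x hx h; exact hx0 (h1 h ▸ hx)
        · intro x _ h; exact hd _ _ h.symm
      have hoff2 : g (i2 x0) = i2 x0 := by
        apply hg3
        · intro x _ h; exact hd _ _ h
        · intro x hx h; exact hx0 (h2 h ▸ hx)
      refine ⟨Equiv.swap (i1 x0) (i2 x0) * g, ?_, ?_, ?_, ?_⟩
      · intro x hx
        rcases Finset.mem_insert.1 hx with rfl | hx
        · rw [Equiv.Perm.mul_apply, hoff1, Equiv.swap_apply_left]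
        · rw [Equiv.Perm.mul_apply, hg1 x hx]
          exact Equiv.swap_apply_of_ne_of_ne (fun h => hd _ _ h.symm)
            (fun h => hx0 (h2 h ▸ hx))
      · intro x hx
        rcases Finset.mem_insert.1 hx with rfl | hx
        · rw [Equiv.Perm.mul_apply, hoff2, Equiv.swap_apply_right]
        · rw [Equiv.Perm.mul_apply, hg2 x hx]
          exact Equiv.swap_apply_of_ne_of_ne (fun h => hx0 (h1 h ▸ hx)) (fun h => hd _ _ h)
      · intro s hs1 hs2
        rw [Equiv.Perm.mul_apply, hg3 s (fun x hx => hs1 x (Finset.mem_insert_of_mem hx))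
          (fun x hx => hs2 x (Finset.mem_insert_of_mem hx))]
        exact Equiv.swap_apply_of_ne_of_ne (fun h => hs1 x0 (Finset.mem_insert_self _ _) h.symm)
          (fun h => hs2 x0 (Finset.mem_insert_self _ _) h.symm)
      · rw [Equiv.Perm.sign_mul, Equiv.Perm.sign_swap (hd x0 x0), hg4,
          Finset.card_insert_of_notMem hx0, pow_succ, mul_comm]
  obtain ⟨g, hg1, hg2, hg3, hg4⟩ := key univ
  exact ⟨g, fun x => hg1 x (mem_univ x), fun x => hg2 x (mem_univ x),
    fun s hs1 hs2 => hg3 s (fun x _ => hs1 x) (fun x _ => hs2 x), hg4⟩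

/-! ### (T2) orbits -/

theorem exists_perm_of_card {S K : Type} [Fintype S] [DecidableEq S] [DecidableEq K]
    (f f' : S → K) (h : ∀ t, (univ.filter fun s => f s = t).card
      = (univ.filter fun s => f' s = t).card) :
    ∃ g : Equiv.Perm S, ∀ s, f' (g s) = f s := by
  classical
  have e : ∀ t, Nonempty ({s // f s = t} ≃ {s // f' s = t}) := by
    intro t
    rw [← Fintype.card_eq, Fintype.card_subtype, Fintype.card_subtype]
    exact h t
  refine ⟨Equiv.ofFiberEquiv (f := f) (g := f') fun t => (e t).some, fun s => ?_⟩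
  exact Equiv.ofFiberEquiv_map _ s

/-- Two colourings whose blocks have the same classes (after recolouring by `ρ`) differ by a type
preserving permutation. -/
theorem exists_perm_of_colour {S I : Type} [Fintype S] [DecidableEq S] [DecidableEq I]
    (τ : S → I) (c c' : S → ℕ) (ρ : ℕ → ℕ) (hρ : Function.Injective ρ)
    (hc' : ∀ s, ∃ s', c' s = ρ (c s'))
    (h : ∀ i t, (univ.filter fun s => c s = i ∧ τ s = t).card
      = (univ.filter fun s => c' s = ρ i ∧ τ s = t).card) :
    ∃ g : Equiv.Perm S, (∀ s, τ (g s) = τ s) ∧ ∀ s, c' (g s) = ρ (c s) := by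
  classical
  obtain ⟨g, hg⟩ := exists_perm_of_card (fun s => (ρ (c s), τ s)) (fun s => (c' s, τ s)) (by
    rintro ⟨p, t⟩
    by_cases hp : ∃ i, ρ i = p
    · obtain ⟨i, rfl⟩ := hp
      have := h i t
      simp only [Prod.mk.injEq]
      convert this using 3
      exact ⟨fun hh => ⟨hρ hh.1, hh.2⟩, fun hh => ⟨by rw [hh.1], hh.2⟩⟩
    · rw [Finset.filter_false_of_mem, Finset.filter_false_of_mem]
      · intro s _ hs
        obtain ⟨s', hs'⟩ := hc' s
        simp only [Prod.mk.injEq] at hs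
        exact hp ⟨c s', by rw [← hs', hs.1]⟩
      · intro s _ hs
        simp only [Prod.mk.injEq] at hs
        exact hp ⟨c s, hs.1⟩)
  refine ⟨g, fun s => ?_, fun s => ?_⟩
  · have := hg s
    simp only [Prod.mk.injEq] at this
    exact this.2
  · have := hg s
    simp only [Prod.mk.injEq] at this
    exact this.1

/-! ### (T4) standard colourings -/

section Std

variable {m r : ℕ}

/-- exchange of the two indices -/
def sigComm (γ : Fin r → Fin m → ℕ) :
    (Σ j : Fin r, Σ i : Fin m, Fin (γ j i)) ≃ Σ i : Fin m, Σ j : Fin r, Fin (γ j i) where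
  toFun x := ⟨x.2.1, x.1, x.2.2⟩
  invFun x := ⟨x.2.1, x.1, x.2.2⟩
  left_inv _ := rfl
  right_inv _ := rfl

/-- type preserving bijection from the disjoint union of the standard sets of the classes `γ j` to
the standard set of `∑ γ j` -/
def stdE (γ : Fin r → Fin m → ℕ) (d : Fin m → ℕ) (hd : ∀ i, ∑ j, γ j i = d i) :
    (Σ j : Fin r, Σ i : Fin m, Fin (γ j i)) ≃ Σ i : Fin m, Fin (d i) :=
  (sigComm γ).trans
    (Equiv.sigmaCongrRight fun i => finSigmaFinEquiv.trans (finCongr (hd i)))

theorem stdE_fst (γ : Fin r → Fin m → ℕ) (d : Fin m → ℕ) (hd : ∀ i, ∑ j, γ j i = d i)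
    (x : Σ j : Fin r, Σ i : Fin m, Fin (γ j i)) : (stdE γ d hd x).1 = x.2.1 := rfl

/-- the standard colouring with blocks of classes `γ 0, γ 1, …` -/
def stdC (γ : Fin r → Fin m → ℕ) (d : Fin m → ℕ) (hd : ∀ i, ∑ j, γ j i = d i) :
    (Σ i : Fin m, Fin (d i)) → ℕ := fun s => (((stdE γ d hd).symm s).1 : Fin r)

/-- embedding of the standard set of the class `γ j` as the block of colour `j` -/
def stdI (γ : Fin r → Fin m → ℕ) (d : Fin m → ℕ) (hd : ∀ i, ∑ j, γ j i = d i) (j : Fin r) :
    (Σ i : Fin m, Fin (γ j i)) → Σ i : Fin m, Fin (d i) := fun x => stdE γ d hd ⟨j, x⟩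

variable (γ : Fin r → Fin m → ℕ) (d : Fin m → ℕ) (hd : ∀ i, ∑ j, γ j i = d i)

theorem stdI_fst (j : Fin r) (x : Σ i : Fin m, Fin (γ j i)) : (stdI γ d hd j x).1 = x.1 := rfl

theorem stdC_stdI (j : Fin r) (x : Σ i : Fin m, Fin (γ j i)) :
    stdC γ d hd (stdI γ d hd j x) = j := by
  unfold stdC stdI
  rw [Equiv.symm_apply_apply]

theorem stdI_injective (j : Fin r) : Function.Injective (stdI γ d hd j) := by
  intro x y h
  have h1 := (stdE γ d hd).injective h
  exact eq_of_heq (Sigma.mk.inj h1).2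

theorem stdI_ne {j j' : Fin r} (h : j ≠ j') (x : Σ i : Fin m, Fin (γ j i))
    (y : Σ i : Fin m, Fin (γ j' i)) : stdI γ d hd j x ≠ stdI γ d hd j' y := by
  intro hxy
  have h1 := congrArg (stdC γ d hd) hxy
  rw [stdC_stdI, stdC_stdI] at h1
  exact h (Fin.ext h1)

theorem exists_stdI (s : Σ i : Fin m, Fin (d i)) :
    ∃ (j : Fin r) (x : Σ i : Fin m, Fin (γ j i)), s = stdI γ d hd j x :=
  ⟨((stdE γ d hd).symm s).1, ((stdE γ d hd).symm s).2, by
    unfold stdI; rw [Sigma.eta, Equiv.apply_symm_apply]⟩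

theorem stdC_lt (s : Σ i : Fin m, Fin (d i)) : stdC γ d hd s < r :=
  (((stdE γ d hd).symm s).1).2

theorem mem_blk_stdC (j : Fin r) (s : Σ i : Fin m, Fin (d i)) :
    s ∈ blk (stdC γ d hd) j ↔ ∃ x, stdI γ d hd j x = s := by
  rw [mem_blk]
  constructor
  · intro h
    obtain ⟨j', x, rfl⟩ := exists_stdI γ d hd s
    rw [stdC_stdI] at h
    have : j' = j := Fin.ext h
    subst this
    exact ⟨x, rfl⟩
  · rintro ⟨x, rfl⟩
    exact stdC_stdI γ d hd j x

theorem blk_stdC (j : Fin r) : blk (stdC γ d hd) j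
    = univ.map ⟨stdI γ d hd j, stdI_injective γ d hd j⟩ := by
  ext s
  rw [mem_blk_stdC]
  simp

/-- number of particles of type `t` in the block of colour `j` -/
theorem card_stdC (j : Fin r) (t : Fin m) :
    (univ.filter fun s => stdC γ d hd s = (j : ℕ) ∧ s.1 = t).card = γ j t := by
  have h1 : (univ.filter fun s => stdC γ d hd s = (j : ℕ) ∧ s.1 = t)
      = (univ : Finset (Fin (γ j t))).map
          ⟨fun x => stdI γ d hd j ⟨t, x⟩, fun x y h => by
            have := stdI_injective γ d hd j h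
            exact eq_of_heq (Sigma.mk.inj this).2⟩ := by
    ext s
    simp only [mem_filter, mem_univ, true_and, mem_map, Function.Embedding.coeFn_mk]
    constructor
    · rintro ⟨h1, h2⟩
      obtain ⟨x, rfl⟩ := (mem_blk_stdC γ d hd j s).1 (mem_blk.2 h1)
      rw [stdI_fst] at h2
      obtain ⟨i, x⟩ := x
      simp only at h2
      subst h2
      exact ⟨x, rfl⟩
    · rintro ⟨x, rfl⟩
      exact ⟨stdC_stdI γ d hd j _, rfl⟩
  rw [h1, card_map, card_univ, Fintype.card_fin]

end Std

end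

end Vale.Agent.P066.Lab
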