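import Vale.Agent.P066.Lab.H66.W3e
import Vale.Agent.P066.Lab.LSW.W2

/-!
# [LSW] W3: words with different multisets of letters are independent
-/

set_option autoImplicit false
set_option linter.unusedSectionVars false

open Finset MvPolynomial

namespace Vale.Agent.P066.Lab.LSW.H66

open Vale.Agent.P066.Lab Vale.Agent.P066.Lab.LSW
open Vale.Agent.P066.Theta.H422 (Alt TP mem_TP mem_Alt)

noncomputable section

theorem swapP_of_good {n : ℕ} {a : Fin n → Fin n → ℕ} {θ : Fin n → ℤ} (hs : SymD a θ)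
    {L : Letters a θ} {r : ℕ} {w : Fin r → Ltr L} (hg : Good w) {e : ℕ}
    (he : 2 * (e : ℤ) + nb (cW (clsW w)) =
      lev w + 2 * CC (aT a (tyW (clsW w))) (cW (clsW w))) : SwapP w e := by
  intro i j hij hw
  obtain ⟨g, hg1, hg2, hg3, hg4⟩ := SG1 w hij hw
  refine ⟨g, hg1, hg2, ?_⟩
  have hc : cW (clsW w) ∘ g = exN (Equiv.swap i j) ∘ cW (clsW w) := by
    funext s
    show ((g s).1 : ℕ) = exN (Equiv.swap i j) (s.1 : ℕ)
    rw [exN_val, hg2]
  have h1 := Sb_same hs w hg1 (exN_injective (Equiv.swap i j)) hc he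
  have h2 : w ∘ (Equiv.swap i j) = w := by
    funext k
    show w (Equiv.swap i j k) = w k
    rcases eq_or_ne k i with rfl | hki
    · rw [Equiv.swap_apply_left, hw]
    · rcases eq_or_ne k j with rfl | hkj
      · rw [Equiv.swap_apply_right, hw]
      · rw [Equiv.swap_apply_of_ne_of_ne hki hkj]
  have h3 : (αW w).mapDomain (exN (Equiv.swap i j)) = αW w := by
    have h4 := αW_comp w (Equiv.swap i j)
    rw [h2, Equiv.symm_swap] at h4
    exact h4.symm
  rw [hg3, h3, SG2 hs w hij hw, ← Sb_PW hs w he] at h1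
  have h5 : ((-1 : ℚ)) ^ arD a (cls (w i)) (cls (w i)) = sg g := by
    rw [hg4]
    have h6 : Even (Theta.deg (cls (w i)) + arD a (cls (w i)) (cls (w i))) :=
      Nat.not_odd_iff_even.1 (hg i j hij hw)
    have h7 : ((-1 : ℚ)) ^ (Theta.deg (cls (w i)) + arD a (cls (w i)) (cls (w i))) = 1 :=
      h6.neg_one_pow
    rw [pow_add] at h7
    have h8 : ((-1 : ℚ)) ^ Theta.deg (cls (w i)) * (-1 : ℚ) ^ Theta.deg (cls (w i)) = 1 := by
      rw [← mul_pow]
      simp
    calc ((-1 : ℚ)) ^ arD a (cls (w i)) (cls (w i))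
        = ((-1 : ℚ) ^ Theta.deg (cls (w i)) * (-1 : ℚ) ^ Theta.deg (cls (w i))) *
            (-1 : ℚ) ^ arD a (cls (w i)) (cls (w i)) := by rw [h8, one_mul]
      _ = (-1 : ℚ) ^ Theta.deg (cls (w i)) := by rw [mul_assoc, h7, mul_one]
  rw [h5] at h1
  exact h1

/-- **[W3]** -/
theorem w3 : W3 := w3_of fun _ _ _ hs _ _ _ hg _ he => swapP_of_good hs hg he

end

end Vale.Agent.P066.Lab.LSW.H66
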