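import Vale.Agent.P066.Lab.LSW.Words
import Vale.Agent.P066.Lab.KunSub

/-!
# [LSW] W3, part (a): independence of the products of basis elements; transport of words
-/

set_option autoImplicit false
set_option linter.unusedSectionVars false

open Finset MvPolynomial

namespace Vale.Agent.P066.Lab.LSW.H66

open Vale.Agent.P066.Lab Vale.Agent.P066.Lab.LSW
open Vale.Agent.P066.Theta.H422 (Alt TP mem_TP mem_Alt)

noncomputable section

variable {n : ℕ} {a : Fin n → Fin n → ℕ} {θ : Fin n → ℤ}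

/-! ### the blocks of `cW` -/

theorem mk_injective {r : ℕ} (D : Fin r → Fin n →₀ ℕ) (j : Fin r) :
    Function.Injective (Sigma.mk (β := fun i => Pt (D i)) j) := fun x y h => by simpa using h

theorem image_mk {r : ℕ} (D : Fin r → Fin n →₀ ℕ) (j : Fin r) :
    (univ : Finset (Pt (D j))).image (Sigma.mk (β := fun i => Pt (D i)) j) =
      blk (cW D) (j : ℕ) := by
  ext s
  rw [mem_image, mem_blk]
  constructor
  · rintro ⟨p, _, rfl⟩
    rfl
  · intro h
    obtain ⟨i, p⟩ := s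
    have : i = j := Fin.ext h
    subst this
    exact ⟨p, mem_univ _, rfl⟩

theorem JC_cW {r : ℕ} (D : Fin r → Fin n →₀ ℕ) :
    (⨆ j : Fin r, Ideal.span (gensB ℚ (aT a (tyW D)) (tT θ (tyW D)) (blk (cW D) (j : ℕ)))) =
      JC ℚ (aT a (tyW D)) (tT θ (tyW D)) (cW D) := by
  unfold JC
  apply le_antisymm
  · refine iSup_le fun j => ?_
    rw [← J0_eq_span]
    exact le_iSup (fun i => J0 ℚ (aT a (tyW D)) (tT θ (tyW D)) (blk (cW D) i)) (j : ℕ)
  · refine iSup_le fun i => ?_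
    by_cases hi : i < r
    · rw [J0_eq_span]
      exact le_iSup (fun j : Fin r => Ideal.span (gensB ℚ (aT a (tyW D)) (tT θ (tyW D))
        (blk (cW D) (j : ℕ)))) ⟨i, hi⟩
    · rw [blk_cW_of_le D (not_lt.1 hi), J0_emptyset]
      exact bot_le

theorem rename_mk_supported {r : ℕ} (D : Fin r → Fin n →₀ ℕ) (j : Fin r)
    (f : MvPolynomial (Pt (D j)) ℚ) :
    rename (Sigma.mk (β := fun i => Pt (D i)) j) f ∈
      supported ℚ (↑(blk (cW D) (j : ℕ)) : Set (SW D)) := by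
  classical
  rw [mem_supported, ← image_mk]
  intro s hs
  have h1 := vars_rename (Sigma.mk (β := fun i => Pt (D i)) j) f hs
  rw [mem_image] at h1
  obtain ⟨p, _, rfl⟩ := h1
  rw [mem_coe, mem_image]
  exact ⟨p, mem_univ _, rfl⟩

theorem rename_mk_mem_iff {r : ℕ} (D : Fin r → Fin n →₀ ℕ) (j : Fin r)
    (f : MvPolynomial (Pt (D j)) ℚ) :
    rename (Sigma.mk (β := fun i => Pt (D i)) j) f ∈
      J0 ℚ (aT a (tyW D)) (tT θ (tyW D)) (blk (cW D) (j : ℕ)) ↔
      f ∈ J0 ℚ (aP a (D j)) (θP θ (D j)) univ := by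
  rw [← image_mk]
  exact mem_J0_iff ℚ (a := aT a (tyW D)) (a' := aP a (D j)) (θ := tT θ (tyW D))
      (θ' := θP θ (D j)) (mk_injective D j) (fun _ _ => rfl) (fun _ => rfl) univ f

theorem blk_cW_pairwise {r : ℕ} (D : Fin r → Fin n →₀ ℕ) :
    Pairwise (Function.onFun Disjoint fun j : Fin r => (↑(blk (cW D) (j : ℕ)) : Set (SW D))) := by
  intro i j hij
  rw [Function.onFun, Set.disjoint_left]
  intro s hi hj
  rw [mem_coe, mem_blk] at hi hj
  exact hij (Fin.ext (hi.symm.trans hj))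

variable {L : Letters a θ}

/-- `∏_j v_{y_j}(block j)` for basis elements of given classes -/
def vD (L : Letters a θ) {r : ℕ} (D : Fin r → Fin n →₀ ℕ) (y : ∀ j, L.Y (D j)) :
    MvPolynomial (SW D) ℚ := ∏ j, rename (Sigma.mk (β := fun i => Pt (D i)) j) (L.v (y j))

theorem linearIndependent_vD (L : Letters a θ) {r : ℕ} (D : Fin r → Fin n →₀ ℕ) :
    LinearIndependent ℚ fun y : (∀ j, L.Y (D j)) =>
      Ideal.Quotient.mk (JC ℚ (aT a (tyW D)) (tT θ (tyW D)) (cW D)) (vD L D y) := by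
  have key := linearIndependent_prod (ι := Fin r) (k := ℚ)
    (G := fun j : Fin r => gensB ℚ (aT a (tyW D)) (tT θ (tyW D)) (blk (cW D) (j : ℕ)))
    (B := fun j : Fin r => (↑(blk (cW D) (j : ℕ)) : Set (SW D))) (blk_cW_pairwise D)
    (fun i => gensB_supported _)
    (κ := fun j => L.Y (D j))
    (fun j y => rename (Sigma.mk (β := fun i => Pt (D i)) j) (L.v y))
    (fun j y => rename_mk_supported D j _) ?_
  · rw [JC_cW] at key
    exact key
  · intro j
    rw [linearIndependent_iff']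
    intro s g hsum x hx
    refine (linearIndependent_iff'.mp (L.ind (D j))) s g ?_ x hx
    have h1 : rename (Sigma.mk (β := fun i => Pt (D i)) j) (∑ x ∈ s, g x • L.v x) ∈
        J0 ℚ (aT a (tyW D)) (tT θ (tyW D)) (blk (cW D) (j : ℕ)) := by
      rw [J0_eq_span, ← Ideal.Quotient.eq_zero_iff_mem, map_sum, map_sum, ← hsum]
      refine Finset.sum_congr rfl fun y _ => ?_
      rw [map_smul]
      exact map_smul (Ideal.Quotient.mkₐ ℚ (Ideal.span (gensB ℚ (aT a (tyW D)) (tT θ (tyW D))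
        (blk (cW D) (j : ℕ))))) (g y) _
    have h2 := (rename_mk_mem_iff D j _).1 h1
    rw [← Ideal.Quotient.eq_zero_iff_mem, map_sum] at h2
    rw [← h2]
    refine Finset.sum_congr rfl fun y _ => ?_
    exact (map_smul (Ideal.Quotient.mkₐ ℚ (J0 ℚ (aP a (D j)) (θP θ (D j)) univ)) (g y)
      (L.v y)).symm

/-- the dual functional -/
theorem exists_dual_vD (L : Letters a θ) {r : ℕ} (D : Fin r → Fin n →₀ ℕ)
    (y0 : ∀ j, L.Y (D j)) :
    ∃ φ : (MvPolynomial (SW D) ℚ ⧸ JC ℚ (aT a (tyW D)) (tT θ (tyW D)) (cW D)) →ₗ[ℚ] ℚ,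
      φ (Ideal.Quotient.mk _ (vD L D y0)) = 1 ∧
      ∀ y, y ≠ y0 → φ (Ideal.Quotient.mk _ (vD L D y)) = 0 :=
  exists_dual (linearIndependent_vD L D) y0

/-! ### transport of letters and words -/

theorem cls_eq_of_TB {d d' : Fin n →₀ ℕ} {e : Pt d ≃ Pt d'}
    (h : TB (Sigma.fst : Pt d → Fin n) (Sigma.fst : Pt d' → Fin n) e) : d = d' := by
  ext i
  have h1 : ∀ c : Fin n →₀ ℕ, ((univ : Finset (Pt c)).filter fun s => s.1 = i).card = c i := by
    intro c
    have : ((univ : Finset (Pt c)).filter fun s => s.1 = i) =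
        (univ : Finset (Fin (c i))).map ⟨fun x => (⟨i, x⟩ : Pt c), fun x y h => by simpa using h⟩
        := by
      ext ⟨i', x⟩
      simp only [mem_filter, mem_univ, true_and, mem_map]
      constructor
      · rintro rfl
        exact ⟨x, rfl⟩
      · rintro ⟨y, hy⟩
        cases hy
        rfl
    rw [this, card_map, card_univ, Fintype.card_fin]
  rw [← h1 d, ← h1 d']
  refine card_bij (fun s _ => e s) ?_ ?_ ?_
  · intro s hs
    rw [mem_filter] at hs ⊢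
    exact ⟨mem_univ _, (h s).trans hs.2⟩
  · intro s _ t _ hst
    exact e.injective hst
  · intro t ht
    rw [mem_filter] at ht
    refine ⟨e.symm t, ?_, e.apply_symm_apply t⟩
    rw [mem_filter]
    exact ⟨mem_univ _, (h.symm t).trans ht.2⟩

theorem letter_transport (l : Ltr L) {d' : Fin n →₀ ℕ} {τ : Pt (cls l) ≃ Pt d'}
    (hτ : TB (Sigma.fst : Pt (cls l) → Fin n) (Sigma.fst : Pt d' → Fin n) τ) :
    ∃ (y : L.Y d') (ε : ℚ), l = (⟨d', y, ml l⟩ : Σ d : Fin n →₀ ℕ, L.Y d × ℕ) ∧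
      rename τ (vl l) = ε • L.v y := by
  obtain ⟨d, y, m⟩ := l
  have hd : d = d' := cls_eq_of_TB hτ
  subst hd
  refine ⟨y, sg (τ : Equiv.Perm (Pt d)), rfl, ?_⟩
  exact mem_Alt'.1 (L.alt d y) τ ((mem_TP _ _).2 hτ)

/-- a bijection of particle sets which maps the block `i` to the block `j` -/
theorem exists_block_equiv {r r0 : ℕ} {D' : Fin r → Fin n →₀ ℕ} {D : Fin r0 → Fin n →₀ ℕ}
    {ψ : SW D' ≃ SW D} (hψ : TB (tyW D') (tyW D) ψ) {π : Fin r ≃ Fin r0}
    (hπ : ∀ s, (ψ s).1 = π s.1) {i : Fin r} {j : Fin r0} (hij : π i = j) :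
    ∃ τ : Pt (D' i) ≃ Pt (D j), (∀ x, ψ ⟨i, x⟩ = ⟨j, τ x⟩) ∧
      TB (Sigma.fst : Pt (D' i) → Fin n) (Sigma.fst : Pt (D j) → Fin n) τ := by
  have h0 : ∀ s : SW D, s.1 = j → ∃ y, s = ⟨j, y⟩ := by
    rintro ⟨_, y⟩ rfl
    exact ⟨y, rfl⟩
  have h0' : ∀ s : SW D', s.1 = i → ∃ y, s = ⟨i, y⟩ := by
    rintro ⟨_, y⟩ rfl
    exact ⟨y, rfl⟩
  choose τ hτ using fun x : Pt (D' i) => h0 (ψ ⟨i, x⟩) ((hπ _).trans hij)
  have hinj : Function.Injective τ := by
    intro x y hxy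
    have h1 : ψ ⟨i, x⟩ = ψ ⟨i, y⟩ := by rw [hτ, hτ, hxy]
    exact mk_injective D' i (ψ.injective h1)
  have hsurj : Function.Surjective τ := by
    intro y
    obtain ⟨x, hx⟩ := h0' (ψ.symm ⟨j, y⟩) (by
      apply π.injective
      rw [← hπ, Equiv.apply_symm_apply, hij])
    refine ⟨x, ?_⟩
    have h1 := hτ x
    rw [← hx, Equiv.apply_symm_apply] at h1
    exact (mk_injective D j h1).symm
  refine ⟨Equiv.ofBijective τ ⟨hinj, hsurj⟩, hτ, fun x => ?_⟩
  have h1 := hψ ⟨i, x⟩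
  rw [hτ] at h1
  exact h1

/-- transport of the product of the basis elements of a word -/
theorem word_transport {r r0 : ℕ} (w : Fin r → Ltr L) {D : Fin r0 → Fin n →₀ ℕ}
    {ψ : SW (clsW w) ≃ SW D} (hψ : TB (tyW (clsW w)) (tyW D) ψ) {π : Fin r ≃ Fin r0}
    (hπ : ∀ s, (ψ s).1 = π s.1) :
    ∃ (y : ∀ j, L.Y (D j)) (ε : ℚ),
      (∀ j, w (π.symm j) =
        (⟨D j, y j, ml (w (π.symm j))⟩ : Σ d : Fin n →₀ ℕ, L.Y d × ℕ)) ∧
      rename ψ (vW w) = ε • vD L D y := by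
  choose τ hτ1 hτ2 using fun j : Fin r0 =>
    exists_block_equiv hψ hπ (i := π.symm j) (j := j) (π.apply_symm_apply j)
  choose y ε hy1 hy2 using fun j : Fin r0 => letter_transport (w (π.symm j)) (hτ2 j)
  refine ⟨y, ∏ j, ε j, hy1, ?_⟩
  unfold vW vD
  rw [map_prod, ← Equiv.prod_comp π.symm, ← Finset.prod_smul]
  refine prod_congr rfl fun j _ => ?_
  rw [rename_rename]
  have h1 : (ψ ∘ Sigma.mk (π.symm j)) = Sigma.mk (β := fun i => Pt (D i)) j ∘ τ j :=
    funext fun x => hτ1 j x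
  rw [h1, ← rename_rename, hy2, map_smul]

/-- a bijection which respects the blocks induces a bijection of the colours -/
theorem exists_perm_of_blocks {r r0 : ℕ} {D' : Fin r → Fin n →₀ ℕ} {D : Fin r0 → Fin n →₀ ℕ}
    (h' : ∀ j, D' j ≠ 0) (h0 : ∀ j, D j ≠ 0) {ψ : SW D' ≃ SW D}
    (h : ∀ s t, s.1 = t.1 ↔ (ψ s).1 = (ψ t).1) :
    ∃ π : Fin r ≃ Fin r0, ∀ s, (ψ s).1 = π s.1 := by
  have x : ∀ j, Pt (D' j) := fun j => Classical.choice (exists_Pt (h' j))
  have x0 : ∀ j, Pt (D j) := fun j => Classical.choice (exists_Pt (h0 j))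
  have key : ∀ s : SW D', (ψ s).1 = (ψ ⟨s.1, x s.1⟩).1 := fun s => (h _ _).1 rfl
  have hinj : Function.Injective fun j => (ψ ⟨j, x j⟩).1 := fun i j hij => (h _ _).2 hij
  have hsurj : Function.Surjective fun j => (ψ ⟨j, x j⟩).1 := by
    intro j
    refine ⟨(ψ.symm ⟨j, x0 j⟩).1, ?_⟩
    show (ψ ⟨(ψ.symm ⟨j, x0 j⟩).1, x _⟩).1 = j
    rw [← key, Equiv.apply_symm_apply]
  exact ⟨Equiv.ofBijective _ ⟨hinj, hsurj⟩, key⟩

end

end Vale.Agent.P066.Lab.LSW.H66
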