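import Vale.Agent.P066.Lab.H66.W3g

/-!
# [LSW] W3, part (b): the symbols of the words
-/

set_option autoImplicit false
set_option linter.unusedSectionVars false

open Finset MvPolynomial

namespace Vale.Agent.P066.Lab.LSW.H66

open Vale.Agent.P066.Lab Vale.Agent.P066.Lab.LSW
open Vale.Agent.P066.Theta.H422 (Alt TP mem_TP mem_Alt)

noncomputable section

variable {n : ℕ} {a : Fin n → Fin n → ℕ} {θ : Fin n → ℤ}

section General

variable {S : Type} [Fintype S] [DecidableEq S] {a' : S → S → ℕ} {θ' : S → ℤ}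

theorem Sb_smul (c : S → ℕ) (d : ℕ) (r : ℚ) (f : MvPolynomial S ℚ) :
    Sb ℚ a' θ' c d (r • f) = r • Sb ℚ a' θ' c d f := by
  ext α
  rw [coeff_Sb, coeff_smul, coeff_Sb, map_smul, coeff_smul]
  split_ifs
  · exact map_smul (Ideal.Quotient.mkₐ ℚ (JC ℚ a' θ' c)) r _
  · rw [smul_zero]

theorem neg_one_pow_mul (m : ℕ) (f : MvPolynomial S ℚ) :
    (-1) ^ m * f = ((-1 : ℚ) ^ m) • f := by
  rw [smul_eq_C_mul, map_pow, map_neg, map_one]

theorem sgn_smul_sgn {M : Type*} [AddCommGroup M] [Module ℚ M] (m : ℕ) (x : M) :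
    ((-1 : ℚ) ^ m) • (((-1 : ℚ) ^ m) • x) = x := by
  rw [smul_smul, ← mul_pow]
  simp

end General

variable {L : Letters a θ}

section Symbols

variable {S : Type} [Fintype S] [DecidableEq S] {ty : S → Fin n}

/-- The symbol at a colouring with another set of blocks, or of larger level, vanishes. -/
theorem Sb_other (hs : SymD a θ) {r : ℕ} (w : Fin r → Ltr L) {ψ : SW (clsW w) ≃ S}
    (hψ : TB (tyW (clsW w)) ty ψ) {c0 : S → ℕ} (hc0 : Zc (tT θ ty) c0) {N : ℤ} {e : ℕ}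
    (he : 2 * (e : ℤ) + nb c0 = N + 2 * CC (aT a ty) c0) (hN : lev w ≤ N)
    (h : lev w < N ∨ ¬ ∀ s t, s.1 = t.1 ↔ c0 (ψ s) = c0 (ψ t)) :
    Sb ℚ (aT a ty) (tT θ ty) c0 e (rename ψ (PW w)) = 0 := by
  have hsym := SymZ_typed hs (tyW (clsW w))
  have hc : Zc (tT θ (tyW (clsW w))) (c0 ∘ ψ) := (Zc_equiv ψ (hψ.tT_eq θ) c0).2 hc0
  have hd : Zc (tT θ (tyW (clsW w))) (cW (clsW w)) := Zc_cW _ fun _ => cls_wt _
  refine Sb_eq_zero_of_lev (n := N) ?_ he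
  rw [Lev_equiv ℚ ψ (hψ.aT_eq a) (hψ.tT_eq θ)]
  have hlev := lev_eq w
  rcases h with h | h
  · refine (lev_KC_mul hsym hc hd (Gc_vW hs w) (αW w)).mono ?_
    omega
  · refine (lev_KC_mul' hsym hc hd ?_ (Gc_vW hs w)
      (fun m hm h1 h2 => Gc_lev_lt hsym (Gc_vW hs w) hm h1 h2) (αW w)).mono ?_
    · rintro ⟨h1, h2⟩
      refine h fun s t => ⟨fun hst => h2 s t (congrArg Fin.val hst), fun hst => ?_⟩
      exact Fin.ext (h1 s t hst)
    · omega

/-- The symbol at a colouring with the same blocks. -/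
theorem Sb_same (hs : SymD a θ) {r : ℕ} (w : Fin r → Ltr L) {ψ : SW (clsW w) ≃ S}
    (hψ : TB (tyW (clsW w)) ty ψ) {c0 : S → ℕ} {σ : ℕ → ℕ} (hσ : Function.Injective σ)
    (hc : c0 ∘ ψ = σ ∘ cW (clsW w)) {e : ℕ}
    (he : 2 * (e : ℤ) + nb c0 = lev w + 2 * CC (aT a ty) c0) :
    Sb ℚ (aT a ty) (tT θ ty) c0 e (rename ψ (PW w)) =
      ((-1 : ℚ) ^ invN (aT a (tyW (clsW w))) σ (cW (clsW w))) •
        (PU (aT a ty) (MvPolynomial S ℚ ⧸ JC ℚ (aT a ty) (tT θ ty) c0) c0 *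
          monomial ((αW w).mapDomain σ)
            (Ideal.Quotient.mk (JC ℚ (aT a ty) (tT θ ty) c0) (rename ψ (vW w)))) := by
  have hsym := SymZ_typed hs (tyW (clsW w))
  have hd : Zc (tT θ (tyW (clsW w))) (cW (clsW w)) := Zc_cW _ fun _ => cls_wt _
  have hd' : Zc (tT θ (tyW (clsW w))) (σ ∘ cW (clsW w)) := (Zc_recolour hσ _).2 hd
  have hc0 : Zc (tT θ ty) c0 := (Zc_equiv ψ (hψ.tT_eq θ) c0).1 (hc ▸ hd')
  have hnb : nb c0 = nb (cW (clsW w)) := by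
    rw [← nb_equiv ψ c0, hc, nb_recolour hσ]
  have hlev := lev_eq w
  -- the two products
  have h1 := Fil_KC_recolour hsym hσ hd (Gc_vW hs w) (αW_support w)
  rw [← hlev] at h1
  have h2 := (rename_fil hψ _ _).2 h1 c0 hc0
  have h3 := Sb_eq_zero_of_lev (n := lev w) h2 he
  rw [map_sub, H749.Sb_sub, sub_eq_zero, map_mul, map_mul, ← hc, map_mul, map_pow, map_neg,
    map_one, neg_one_pow_mul, Sb_smul] at h3
  have h4 : rename ψ (KC ℚ (aT a (tyW (clsW w))) (c0 ∘ ψ)) = KC ℚ (aT a ty) c0 :=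
    KC_equiv ℚ ψ (hψ.aT_eq a) c0
  have h5 : rename ψ (um ℚ (cW (clsW w)) (αW w)) = um ℚ c0 ((αW w).mapDomain σ) := by
    rw [← um_recolour hσ, ← hc, um_equiv]
  rw [h4, h5] at h3
  have h6 : Sb ℚ (aT a ty) (tT θ ty) c0 e
      (KC ℚ (aT a ty) c0 * (rename ψ (vW w) * um ℚ c0 ((αW w).mapDomain σ))) =
      PU (aT a ty) (MvPolynomial S ℚ ⧸ JC ℚ (aT a ty) (tT θ ty) c0) c0 *
        monomial ((αW w).mapDomain σ)
          (Ideal.Quotient.mk (JC ℚ (aT a ty) (tT θ ty) c0) (rename ψ (vW w))) := by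
    refine H749.Sb_KC_mul_term hc0 ?_ ?_ ?_
    · rw [Gc_equiv ℚ ψ (hψ.aT_eq a) (hψ.tT_eq θ), hc, Gc_recolour ℚ hsym hσ _ hd]
      exact Gc_vW hs w
    · intro i hi
      have h7 := Finsupp.mapDomain_support hi
      rw [mem_image] at h7
      obtain ⟨k, hk, rfl⟩ := h7
      have h8 := αW_support w k hk
      rw [mem_image] at h8 ⊢
      obtain ⟨s, _, rfl⟩ := h8
      exact ⟨ψ s, mem_univ _, congrFun hc s⟩
    · rw [Finsupp.degree_mapDomain]
      omega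
  rw [← h6, h3, sgn_smul_sgn]
  rfl

end Symbols

end

end Vale.Agent.P066.Lab.LSW.H66
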