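import Vale.Agent.P066.Lab.H66.W3b
import Vale.Agent.P066.Lab.LSW.Block
import Vale.Agent.P066.Lab.H402.Super

/-!
# [LSW] W3, part (c): the stabiliser of a word acts on its symbol by the sign
-/

set_option autoImplicit false
set_option linter.unusedSectionVars false

open Finset MvPolynomial

namespace Vale.Agent.P066.Lab.LSW.H66

open Vale.Agent.P066.Lab Vale.Agent.P066.Lab.LSW
open Vale.Agent.P066.Theta.H422 (Alt TP mem_TP mem_Alt)

noncomputable section

variable {n : ℕ} {a : Fin n → Fin n → ℕ} {θ : Fin n → ℤ} {L : Letters a θ} {r : ℕ}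

/-! ### permutations inside the blocks -/

theorem rename_ext_PW (w : Fin r → Ltr L) (j : Fin r) {σ : Equiv.Perm (Pt (clsW w j))}
    (h : σ ∈ TP (Sigma.fst : Pt (clsW w j) → Fin n)) :
    rename (ext (clsW w) j σ) (PW w) = sg (ext (clsW w) j σ) • PW w := by
  rw [PW_eq_PD, rename_ext_PD _ _ _ j h, sg_ext]
  have h1 : rename σ (vl (w j)) = sg σ • vl (w j) := mem_Alt'.1 (L.alt _ _) σ h
  have h2 := PD_update_sum (a := a) (clsW w) (fun j => vl (w j)) (αW w) j (univ : Finset Unit)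
    (fun _ => sg σ) (fun _ => vl (w j))
  simp only [univ_unique, sum_singleton] at h2
  rw [h1, h2, Function.update_eq_self]

theorem rename_inblock (w : Fin r → Ltr L) {ρ : Equiv.Perm (SW (clsW w))}
    (hρ : TB (tyW (clsW w)) (tyW (clsW w)) ρ) (h : ∀ s, (ρ s).1 = s.1) :
    rename ρ (PW w) = sg ρ • PW w := by
  choose τ hτ1 hτ2 using fun j : Fin r =>
    exists_block_equiv hρ (π := Equiv.refl _) h (i := j) (j := j) rfl
  have key : ∀ F : Finset (Fin r), ∀ ρ : Equiv.Perm (SW (clsW w)),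
      (∀ j ∈ F, ∀ x, ρ ⟨j, x⟩ = ⟨j, τ j x⟩) → (∀ j, j ∉ F → ∀ x, ρ ⟨j, x⟩ = ⟨j, x⟩) →
      rename ρ (PW w) = sg ρ • PW w := by
    intro F
    induction F using Finset.induction_on with
    | empty =>
      intro ρ _ h2
      have : ρ = 1 := by
        ext1 ⟨j, x⟩
        exact h2 j (notMem_empty j) x
      rw [this, sg_one, one_smul]
      exact rename_id_apply _
    | insert j F hj ih =>
      intro ρ h1 h2
      have hτj : (τ j : Equiv.Perm (Pt (clsW w j))) ∈ TP (Sigma.fst : Pt (clsW w j) → Fin n) :=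
        (mem_TP _ _).2 (hτ2 j)
      set g := ext (clsW w) j (τ j) with hg
      have h3 : rename (g⁻¹ * ρ) (PW w) = sg (g⁻¹ * ρ) • PW w := by
        refine ih _ ?_ ?_
        · intro i hi x
          have hij : i ≠ j := fun h => hj (h ▸ hi)
          rw [Equiv.Perm.mul_apply, h1 i (mem_insert_of_mem hi)]
          rw [Equiv.Perm.inv_eq_iff_eq, hg, ext_apply_ne _ hij]
        · intro i hi x
          rw [Equiv.Perm.mul_apply, Equiv.Perm.inv_eq_iff_eq]
          by_cases hij : i = j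
          · subst hij
            rw [h1 i (mem_insert_self _ _), hg, ext_apply_same]
          · rw [h2 i (by rw [mem_insert]; tauto), hg, ext_apply_ne _ hij]
      have h4 : rename ρ (PW w) = rename g (rename (g⁻¹ * ρ) (PW w)) := by
        rw [rename_rename]
        congr 2
        funext s
        simp
      rw [h4, h3, map_smul, hg, rename_ext_PW w j hτj, smul_smul, ← hg, mul_comm, ← sg_mul,
        mul_inv_cancel_left]
  exact key univ ρ (fun j _ x => hτ1 j x) fun j hj => absurd (mem_univ j) hj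

/-! ### permutations of the blocks -/

section BlockPerm

variable {w : Fin r → Ltr L} {e : ℕ}

/-- a permutation of the blocks maps elements with vanishing symbol to such elements -/
theorem Sb_blockperm {ρ : Equiv.Perm (SW (clsW w))}
    (hρ : TB (tyW (clsW w)) (tyW (clsW w)) ρ) {π : Equiv.Perm (Fin r)}
    (hπ : ∀ s, (ρ s).1 = π s.1) {h : MvPolynomial (SW (clsW w)) ℚ}
    (h0 : Sb ℚ (aT a (tyW (clsW w))) (tT θ (tyW (clsW w))) (cW (clsW w)) e h = 0) :
    Sb ℚ (aT a (tyW (clsW w))) (tT θ (tyW (clsW w))) (cW (clsW w)) e (rename ρ h) = 0 := by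
  have h1 : cW (clsW w) ∘ ρ = exN π ∘ cW (clsW w) := by
    funext s
    show ((ρ s).1 : ℕ) = exN π (s.1 : ℕ)
    rw [exN_val, hπ]
  rw [Sb_equiv ℚ ρ (hρ.aT_eq a) (hρ.tT_eq θ)]
  have h2 : Sb ℚ (aT a (tyW (clsW w))) (tT θ (tyW (clsW w))) (cW (clsW w) ∘ ρ) e h = 0 := by
    rw [h1, Sb_recolour ℚ (exN_injective π), h0, map_zero, map_zero]
  rw [h2, map_zero]

/-- the sign property -/
def SgnP (w : Fin r → Ltr L) (e : ℕ) (ρ : Equiv.Perm (SW (clsW w))) : Prop :=
  Sb ℚ (aT a (tyW (clsW w))) (tT θ (tyW (clsW w))) (cW (clsW w)) e (rename ρ (PW w)) =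
    sg ρ • Sb ℚ (aT a (tyW (clsW w))) (tT θ (tyW (clsW w))) (cW (clsW w)) e (PW w)

theorem SgnP.mul {ρ ρ' : Equiv.Perm (SW (clsW w))} (h : SgnP w e ρ) (h' : SgnP w e ρ')
    (hρ : TB (tyW (clsW w)) (tyW (clsW w)) ρ) {π : Equiv.Perm (Fin r)}
    (hπ : ∀ s, (ρ s).1 = π s.1) : SgnP w e (ρ * ρ') := by
  unfold SgnP at h h' ⊢
  have h1 : Sb ℚ (aT a (tyW (clsW w))) (tT θ (tyW (clsW w))) (cW (clsW w)) e
      (rename ρ' (PW w) - sg ρ' • PW w) = 0 := by
    rw [H749.Sb_sub, Sb_smul, h', sub_self]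
  have h2 := Sb_blockperm hρ hπ h1
  rw [map_sub, map_smul, H749.Sb_sub, Sb_smul, h, sub_eq_zero, smul_smul, mul_comm,
    ← sg_mul] at h2
  rw [← h2, rename_rename]
  rfl

theorem SgnP.of_inblock {ρ : Equiv.Perm (SW (clsW w))}
    (hρ : TB (tyW (clsW w)) (tyW (clsW w)) ρ) (h : ∀ s, (ρ s).1 = s.1) : SgnP w e ρ := by
  unfold SgnP
  rw [rename_inblock w hρ h, Sb_smul]

/-- the input: exchange of two equal letters -/
def SwapP (w : Fin r → Ltr L) (e : ℕ) : Prop := ∀ i j : Fin r, i ≠ j → w i = w j →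
  ∃ g : Equiv.Perm (SW (clsW w)), TB (tyW (clsW w)) (tyW (clsW w)) g ∧
    (∀ s, (g s).1 = Equiv.swap i j s.1) ∧ SgnP w e g

theorem SgnP.of_stab (hsw : SwapP w e) {π : Equiv.Perm (Fin r)} (hw : ∀ j, w (π j) = w j)
    {ρ : Equiv.Perm (SW (clsW w))} (hρ : TB (tyW (clsW w)) (tyW (clsW w)) ρ)
    (hπ : ∀ s, (ρ s).1 = π s.1) : SgnP w e ρ := by
  have key := H402.HG_induction (P := Fin r) (fun j => w j)
    (fun π => ∀ ρ : Equiv.Perm (SW (clsW w)), TB (tyW (clsW w)) (tyW (clsW w)) ρ →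
      (∀ s, (ρ s).1 = π s.1) → SgnP w e ρ) ?_ ?_ π hw ρ hρ hπ
  · exact key
  · intro ρ hρ h
    exact SgnP.of_inblock hρ h
  · intro i j π hij hne _ ih ρ hρ hπ
    obtain ⟨g, hg1, hg2, hg3⟩ := hsw i j hne hij
    have h1 : SgnP w e (g⁻¹ * ρ) := by
      refine ih _ ?_ ?_
      · exact hρ.trans hg1.symm
      · intro s
        have h2 := hg2 ((g⁻¹ * ρ) s)
        rw [← Equiv.Perm.mul_apply, mul_inv_cancel_left, hπ, Equiv.Perm.mul_apply] at h2
        exact ((Equiv.swap i j).injective h2).symm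
    have h3 := hg3.mul h1 hg1 hg2
    rwa [mul_inv_cancel_left] at h3

end BlockPerm

end

end Vale.Agent.P066.Lab.LSW.H66
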