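import Vale.Agent.P066.Lab.H66.W3c

/-!
# [LSW] W3, part (d): the value functional and the independence
-/

set_option autoImplicit false
set_option linter.unusedSectionVars false

open Finset MvPolynomial

namespace Vale.Agent.P066.Lab.LSW.H66

open Vale.Agent.P066.Lab Vale.Agent.P066.Lab.LSW
open Vale.Agent.P066.Theta.H422 (Alt TP mem_TP mem_Alt)

noncomputable section

variable {n : ℕ} {a : Fin n → Fin n → ℕ} {θ : Fin n → ℤ} {L : Letters a θ}

section Value

variable {S : Type} [Fintype S] [DecidableEq S] {a' : S → S → ℕ} {θ' : S → ℤ} {c0 : S → ℕ}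
  {e : ℕ} {α0 : ℕ →₀ ℕ} {φ : (MvPolynomial S ℚ ⧸ JC ℚ a' θ' c0) →ₗ[ℚ] ℚ}

/-- `f` has the value `x`: its symbol is `P_π(U) T` and `φ(coeff α0 T) = x` -/
def Val (e : ℕ) (α0 : ℕ →₀ ℕ) (φ : (MvPolynomial S ℚ ⧸ JC ℚ a' θ' c0) →ₗ[ℚ] ℚ)
    (f : MvPolynomial S ℚ) (x : ℚ) : Prop :=
  ∃ T : MvPolynomial ℕ (MvPolynomial S ℚ ⧸ JC ℚ a' θ' c0),
    Sb ℚ a' θ' c0 e f = PU a' _ c0 * T ∧ φ (coeff α0 T) = x

theorem Val.of_eq_zero {f : MvPolynomial S ℚ} (h : Sb ℚ a' θ' c0 e f = 0) :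
    Val e α0 φ f 0 := ⟨0, by rw [h, mul_zero], by rw [coeff_zero, map_zero]⟩

theorem Val.unique {f : MvPolynomial S ℚ} {x : ℚ} (h : Val e α0 φ f x)
    (h0 : Sb ℚ a' θ' c0 e f = 0) : x = 0 := by
  obtain ⟨T, h1, h2⟩ := h
  rw [h0] at h1
  rw [← h2, PU_mul_eq_zero c0 h1.symm, coeff_zero, map_zero]

theorem Val.smul {f : MvPolynomial S ℚ} {x : ℚ} (r : ℚ) (h : Val e α0 φ f x) :
    Val e α0 φ (r • f) (r * x) := by
  obtain ⟨T, h1, h2⟩ := h
  refine ⟨r • T, ?_, ?_⟩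
  · rw [Sb_smul, h1, mul_smul_comm]
  · rw [coeff_smul, map_smul, h2, smul_eq_mul]

theorem Val.add {f g : MvPolynomial S ℚ} {x y : ℚ} (h : Val e α0 φ f x)
    (h' : Val e α0 φ g y) : Val e α0 φ (f + g) (x + y) := by
  obtain ⟨T, h1, h2⟩ := h
  obtain ⟨T', h1', h2'⟩ := h'
  refine ⟨T + T', ?_, ?_⟩
  · rw [H749.Sb_add, h1, h1', mul_add]
  · rw [coeff_add, map_add, h2, h2']

theorem Val.sum {ι : Type*} (s : Finset ι) {f : ι → MvPolynomial S ℚ} {x : ι → ℚ}
    (h : ∀ i ∈ s, Val e α0 φ (f i) (x i)) : Val e α0 φ (∑ i ∈ s, f i) (∑ i ∈ s, x i) := by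
  classical
  induction s using Finset.induction_on with
  | empty =>
    rw [sum_empty, sum_empty]
    exact Val.of_eq_zero (Sb_eq_zero_of_mem (zero_mem _) e)
  | insert i s hi ih =>
    rw [sum_insert hi, sum_insert hi]
    exact (h i (mem_insert_self _ _)).add (ih fun j hj => h j (mem_insert_of_mem hj))

end Value

/-- the components of a word -/
def yW {r : ℕ} (w : Fin r → Ltr L) : ∀ j, L.Y (clsW w j) := fun j => (w j).2.1

theorem vW_eq_vD {r : ℕ} (w : Fin r → Ltr L) : vW w = vD L (clsW w) (yW w) := rfl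

/-- The value of a word at the symbol of another word. -/
theorem val_word (hs : SymD a θ) {r r0 : ℕ} (w : Fin r → Ltr L) (w0 : Fin r0 → Ltr L)
    {ψ : SW (clsW w) ≃ SW (clsW w0)} (hψ : TB (tyW (clsW w)) (tyW (clsW w0)) ψ)
    (hlev : lev w ≤ lev w0) {e : ℕ}
    (he : 2 * (e : ℤ) + nb (cW (clsW w0)) =
      lev w0 + 2 * CC (aT a (tyW (clsW w0))) (cW (clsW w0)))
    {φ : (MvPolynomial (SW (clsW w0)) ℚ ⧸
      JC ℚ (aT a (tyW (clsW w0))) (tT θ (tyW (clsW w0))) (cW (clsW w0))) →ₗ[ℚ] ℚ}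
    (hφ : ∀ y, y ≠ yW w0 → φ (Ideal.Quotient.mk _ (vD L (clsW w0) y)) = 0) :
    (∃ π : Fin r ≃ Fin r0, (∀ s, (ψ s).1 = π s.1) ∧ ∀ j, w (π.symm j) = w0 j) ∨
      Val e (αW w0) φ (rename ψ (PW w)) 0 := by
  by_cases h : lev w < lev w0 ∨ ¬ ∀ s t, s.1 = t.1 ↔ cW (clsW w0) (ψ s) = cW (clsW w0) (ψ t)
  · exact Or.inr (Val.of_eq_zero (Sb_other hs w hψ (Zc_cW _ fun _ => cls_wt _) he hlev h))
  · push Not at h
    obtain ⟨h1, h2⟩ := h
    have h1 : lev w = lev w0 := le_antisymm hlev h1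
    obtain ⟨π, hπ⟩ := exists_perm_of_blocks (fun j => cls_ne (w j)) (fun j => cls_ne (w0 j))
      (ψ := ψ) fun s t => (h2 s t).trans ⟨fun h => Fin.ext h, fun h => congrArg Fin.val h⟩
    by_cases hw : ∀ j, w (π.symm j) = w0 j
    · exact Or.inl ⟨π, hπ, hw⟩
    · right
      obtain ⟨σ, hσ, hc⟩ := exists_recolour (cW (clsW w)) (cW (clsW w0) ∘ ψ)
        fun s t => ⟨fun h => (h2 s t).1 (Fin.ext h), fun h => congrArg Fin.val ((h2 s t).2 h)⟩
      rw [← h1] at he
      have h3 := Sb_same hs w hψ hσ hc he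
      obtain ⟨y, ε, hy1, hy2⟩ := word_transport w hψ hπ
      refine ⟨((-1 : ℚ) ^ invN (aT a (tyW (clsW w))) σ (cW (clsW w))) •
        monomial ((αW w).mapDomain σ) (Ideal.Quotient.mk _ (rename ψ (vW w))), ?_, ?_⟩
      · rw [h3, mul_smul_comm]
      · rw [coeff_smul, map_smul, coeff_monomial]
        split_ifs with h4
        · rw [hy2]
          have h5 : φ (Ideal.Quotient.mk _ (ε • vD L (clsW w0) y)) =
              ε • φ (Ideal.Quotient.mk _ (vD L (clsW w0) y)) := by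
            rw [← map_smul]
            exact congrArg φ (map_smul (Ideal.Quotient.mkₐ ℚ _) ε _)
          rw [h5, hφ, smul_zero, smul_zero]
          rintro rfl
          apply hw
          intro j
          rw [hy1]
          have h6 : ml (w (π.symm j)) = ml (w0 j) := by
            have h7 : (αW w).mapDomain σ (j : ℕ) = αW w0 (j : ℕ) := by rw [h4]
            rw [αW_apply] at h7
            rw [← h7]
            have h8 : σ ((π.symm j : Fin r) : ℕ) = (j : ℕ) := by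
              obtain ⟨p⟩ := exists_Pt (cls_ne (w (π.symm j)))
              have h9 := congrFun hc ⟨π.symm j, p⟩
              have h10 := hπ ⟨π.symm j, p⟩
              simp only [Equiv.apply_symm_apply] at h10
              have h11 : cW (clsW w0) (ψ ⟨π.symm j, p⟩) = (j : ℕ) := congrArg Fin.val h10
              rw [← h11]
              exact h9.symm
            rw [← h8, Finsupp.mapDomain_apply hσ, αW_apply]
          rw [h6]
          rfl
        · rw [map_zero, smul_zero]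

end

end Vale.Agent.P066.Lab.LSW.H66
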