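import Vale.Agent.P066.Lab.H66.W3d

/-!
# [LSW] W3, part (e): the independence, given the exchange of equal letters
-/

set_option autoImplicit false
set_option linter.unusedSectionVars false

open Finset MvPolynomial

namespace Vale.Agent.P066.Lab.LSW.H66

open Vale.Agent.P066.Lab Vale.Agent.P066.Lab.LSW
open Vale.Agent.P066.Theta.H422 (Alt TP mem_TP mem_Alt)

noncomputable section

variable {n : ℕ} {a : Fin n → Fin n → ℕ} {θ : Fin n → ℤ} {L : Letters a θ}

theorem J0_univ_le_JC {S : Type} [Fintype S] [DecidableEq S] {a' : S → S → ℕ} {θ' : S → ℤ}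
    (c : S → ℕ) : J0 ℚ a' θ' univ ≤ JC ℚ a' θ' c := by
  have h1 : blk (fun _ : S => 0) 0 = univ := by
    ext s
    simp
  have h2 := J0_le_JC (k := ℚ) (a := a') (θ := θ') (fun _ : S => 0) 0
  rw [h1] at h2
  exact h2.trans (JC_le_of_ref (ref_const c 0))

theorem Sb_PW (hs : SymD a θ) {r : ℕ} (w : Fin r → Ltr L) {e : ℕ}
    (he : 2 * (e : ℤ) + nb (cW (clsW w)) =
      lev w + 2 * CC (aT a (tyW (clsW w))) (cW (clsW w))) :
    Sb ℚ (aT a (tyW (clsW w))) (tT θ (tyW (clsW w))) (cW (clsW w)) e (PW w) =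
      PU (aT a (tyW (clsW w))) _ (cW (clsW w)) *
        monomial (αW w) (Ideal.Quotient.mk _ (vW w)) := by
  refine H749.Sb_KC_mul_term (Zc_cW _ fun _ => cls_wt _) (Gc_vW hs w) (αW_support w) ?_
  have h := lev_eq w
  change (e : ℤ) = CC (aT a (tyW (clsW w))) (cW (clsW w)) + (αW w).degree
  omega

theorem msW_eq {r r0 : ℕ} {w : Fin r → Ltr L} {w0 : Fin r0 → Ltr L} (π : Fin r ≃ Fin r0)
    (h : ∀ j, w (π.symm j) = w0 j) : msW w = msW w0 := by
  unfold msW
  rw [show w0 = w ∘ π.symm from funext fun j => (h j).symm, ← Multiset.map_map,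
    Multiset.map_univ_val_equiv]

/-- the value of the antisymmetrised word at its own symbol is positive -/
theorem val_antis_self (hs : SymD a θ) {r : ℕ} (w : Fin r → Ltr L) {e : ℕ}
    (he : 2 * (e : ℤ) + nb (cW (clsW w)) =
      lev w + 2 * CC (aT a (tyW (clsW w))) (cW (clsW w))) (hsw : SwapP w e)
    {φ : (MvPolynomial (SW (clsW w)) ℚ ⧸
      JC ℚ (aT a (tyW (clsW w))) (tT θ (tyW (clsW w))) (cW (clsW w))) →ₗ[ℚ] ℚ}
    (hφ1 : φ (Ideal.Quotient.mk _ (vD L (clsW w) (yW w))) = 1)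
    (hφ : ∀ y, y ≠ yW w → φ (Ideal.Quotient.mk _ (vD L (clsW w) y)) = 0) :
    ∃ x : ℚ, 0 < x ∧ Val e (αW w) φ (antis (tyW (clsW w)) (PW w)) x := by
  have hself : ∀ ρ : Equiv.Perm (SW (clsW w)), SgnP w e ρ →
      Val e (αW w) φ (rename ρ (PW w)) (sg ρ) := by
    intro ρ hρ
    unfold SgnP at hρ
    rw [Sb_PW hs w he] at hρ
    refine ⟨sg ρ • monomial (αW w) (Ideal.Quotient.mk _ (vW w)), ?_, ?_⟩
    · rw [hρ, mul_smul_comm]
    · rw [coeff_smul, map_smul, coeff_monomial, if_pos rfl, vW_eq_vD, hφ1, smul_eq_mul, mul_one]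
  have key : ∀ ρ : Equiv.Perm (SW (clsW w)), ∃ x : ℚ, ρ ∈ TP (tyW (clsW w)) →
      Val e (αW w) φ (sg ρ • rename ρ (PW w)) x ∧ 0 ≤ x ∧ (ρ = 1 → x = 1) := by
    intro ρ
    by_cases hmem : ρ ∈ TP (tyW (clsW w))
    · have hρ : TB (tyW (clsW w)) (tyW (clsW w)) ρ := tb_of_mem_TP hmem
      by_cases h1 : SgnP w e ρ
      · refine ⟨1, fun _ => ⟨?_, zero_le_one, fun _ => rfl⟩⟩
        have h2 := (hself ρ h1).smul (sg ρ)
        rwa [sg_mul_self] at h2
      · refine ⟨0, fun _ => ⟨?_, le_rfl, ?_⟩⟩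
        · rcases val_word hs w w hρ le_rfl he hφ with ⟨π, hπ, hw⟩ | h2
          · refine absurd (SgnP.of_stab hsw (π := π) ?_ hρ hπ) h1
            intro j
            have := hw (π j)
            rw [Equiv.symm_apply_apply] at this
            exact this.symm
          · have h3 := h2.smul (sg ρ)
            rwa [mul_zero] at h3
        · rintro rfl
          exact absurd (SgnP.of_inblock (TB.refl _) fun _ => rfl) h1
    · exact ⟨0, fun h => absurd h hmem⟩
  choose x hx using key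
  refine ⟨∑ ρ ∈ TP (tyW (clsW w)), x ρ, ?_, ?_⟩
  · have h1 := single_le_sum (f := x) (fun ρ hρ => (hx ρ hρ).2.1) (one_mem_TP (tyW (clsW w)))
    rw [(hx 1 (one_mem_TP _)).2.2 rfl] at h1
    exact lt_of_lt_of_le zero_lt_one h1
  · rw [antis_apply]
    exact Val.sum _ fun ρ hρ => (hx ρ hρ).1

/-- the value of another antisymmetrised word vanishes -/
theorem val_antis_other (hs : SymD a θ) {r r0 : ℕ} (w : Fin r → Ltr L) (w0 : Fin r0 → Ltr L)
    {ψ : SW (clsW w) ≃ SW (clsW w0)} (hψ : TB (tyW (clsW w)) (tyW (clsW w0)) ψ)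
    (hlev : lev w ≤ lev w0) {e : ℕ}
    (he : 2 * (e : ℤ) + nb (cW (clsW w0)) =
      lev w0 + 2 * CC (aT a (tyW (clsW w0))) (cW (clsW w0)))
    {φ : (MvPolynomial (SW (clsW w0)) ℚ ⧸
      JC ℚ (aT a (tyW (clsW w0))) (tT θ (tyW (clsW w0))) (cW (clsW w0))) →ₗ[ℚ] ℚ}
    (hφ : ∀ y, y ≠ yW w0 → φ (Ideal.Quotient.mk _ (vD L (clsW w0) y)) = 0)
    (hms : msW w ≠ msW w0) :
    Val e (αW w0) φ (antis (tyW (clsW w0)) (rename ψ (PW w))) 0 := by
  rw [antis_apply]
  have h := Val.sum (e := e) (α0 := αW w0) (φ := φ) (TP (tyW (clsW w0)))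
    (f := fun σ => sg σ • rename σ (rename ψ (PW w))) (x := fun _ => 0) fun σ hσ => ?_
  · rwa [sum_const_zero] at h
  · have hσ' : TB (tyW (clsW w)) (tyW (clsW w0)) (ψ.trans σ) := hψ.trans (tb_of_mem_TP hσ)
    have h1 : rename σ (rename ψ (PW w)) = rename (ψ.trans σ) (PW w) := by
      rw [rename_rename]
      rfl
    rw [h1]
    rcases val_word hs w w0 hσ' hlev he hφ with ⟨π, _, hw⟩ | h2
    · exact absurd (msW_eq π hw) hms
    · have h3 := h2.smul (sg σ)
      rwa [mul_zero] at h3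

theorem exists_degree {S : Type} [Fintype S] [DecidableEq S] (a' : S → S → ℕ) (c : S → ℕ)
    (m : ℕ) {N : ℤ} (hN : N = 2 * (m : ℤ) + nb c) :
    ∃ e : ℕ, 2 * (e : ℤ) + nb c = N + 2 * CC a' c := by
  refine ⟨H749.CN a' c + m, ?_⟩
  have := H749.CN_cast (a := a') c
  push_cast
  omega

/-- **W3**, given the exchange of two equal letters. -/
theorem w3_of (hsw : ∀ (n : ℕ) (a : Fin n → Fin n → ℕ) (θ : Fin n → ℤ), SymD a θ →
    ∀ (L : Letters a θ) (r : ℕ) (w : Fin r → Ltr L), Good w → ∀ e : ℕ,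
      2 * (e : ℤ) + nb (cW (clsW w)) =
        lev w + 2 * CC (aT a (tyW (clsW w))) (cW (clsW w)) → SwapP w e) : W3 := by
  intro n a θ hs L d ι r w e he hgood hinj
  classical
  rw [linearIndependent_iff']
  intro s g hsum i hi
  by_contra hgi
  obtain ⟨i0, hi0, hmax⟩ := exists_max_image (s.filter fun i => g i ≠ 0) (fun i => lev (w i))
    ⟨i, mem_filter.2 ⟨hi, hgi⟩⟩
  rw [mem_filter] at hi0
  set w0 := w i0 with hw0
  obtain ⟨E, hE⟩ := exists_degree (aT a (tyW (clsW w0))) (cW (clsW w0)) _ (lev_eq w0)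
  obtain ⟨φ, hφ1, hφ⟩ := exists_dual_vD L (clsW w0) (yW w0)
  obtain ⟨x, hx0, hx⟩ := val_antis_self hs w0 hE (hsw n a θ hs L _ w0 (hgood i0) E hE) hφ1 hφ
  -- the relation on the particle set of `w0`
  have he0 : TB (Sigma.fst : Pt d → Fin n) (tyW (clsW w0)) (e i0).symm := (he i0).symm
  have h1 : ∑ i ∈ s, g i • gW (w i) (e i) ∈ J0 ℚ (aP a d) (θP θ d) univ := by
    rw [← Ideal.Quotient.eq_zero_iff_mem, map_sum, ← hsum]
    refine sum_congr rfl fun i _ => ?_
    exact map_smul (Ideal.Quotient.mkₐ ℚ (J0 ℚ (aP a d) (θP θ d) univ)) (g i) _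
  have h2 := (rename_mem_J0 he0 _).2 h1
  have h3 := Sb_eq_zero_of_mem (J0_univ_le_JC (cW (clsW w0)) h2) E
  have h4 : ∀ i ∈ s, Val E (αW w0) φ (rename (e i0).symm (g i • gW (w i) (e i)))
      (if i = i0 then g i0 * x else 0) := by
    intro i hi
    have h5 : rename (e i0).symm (gW (w i) (e i)) =
        antis (tyW (clsW w0)) (rename ((e i).trans (e i0).symm) (PW (w i))) := by
      unfold gW
      rw [← antis_rename_equiv he0, rename_rename]
      rfl
    rw [map_smul, h5]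
    by_cases hii : i = i0
    · subst hii
      rw [if_pos rfl]
      have h6 : rename ((e i).trans (e i).symm) (PW (w i)) = PW (w i) := by
        rw [Equiv.self_trans_symm]
        exact rename_id_apply _
      rw [h6]
      exact hx.smul (g i)
    · rw [if_neg hii]
      by_cases hg : g i = 0
      · rw [hg, zero_smul]
        exact Val.of_eq_zero (Sb_eq_zero_of_mem (zero_mem _) E)
      · have h6 := val_antis_other hs (w i) w0 ((he i).trans he0)
          (hmax i (mem_filter.2 ⟨hi, hg⟩)) hE hφ (fun h => hii (hinj h))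
        have h7 := h6.smul (g i)
        rwa [mul_zero] at h7
  have h5 := Val.sum s h4
  rw [← map_sum] at h5
  have h6 := h5.unique h3
  rw [sum_ite_eq' s i0, if_pos hi0.1] at h6
  rcases mul_eq_zero.1 h6 with h | h
  · exact hi0.2 h
  · exact absurd h hx0.ne'

end

end Vale.Agent.P066.Lab.LSW.H66
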