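import Vale.Agent.P066.Lab.H66.W3a

/-!
# [LSW] The product of the basis elements of a word lies in `Gc`
-/

set_option autoImplicit false
set_option linter.unusedSectionVars false

open Finset MvPolynomial

namespace Vale.Agent.P066.Lab.LSW.H66

open Vale.Agent.P066.Lab Vale.Agent.P066.Lab.LSW
open Vale.Agent.P066.Theta.H422 (Alt TP mem_TP mem_Alt)

noncomputable section

variable {n : ℕ} {a : Fin n → Fin n → ℕ} {θ : Fin n → ℤ}

/-- the block of colour `j` -/
def eB {r : ℕ} (D : Fin r → Fin n →₀ ℕ) (j : Fin r) : Pt (D j) ≃ BT (cW D) (j : ℕ) :=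
  Equiv.ofBijective (fun p => ⟨⟨j, p⟩, rfl⟩) (by
    constructor
    · intro x y h
      exact mk_injective D j (congrArg Subtype.val h)
    · rintro ⟨⟨i, p⟩, h⟩
      have : i = j := Fin.ext h
      subst this
      exact ⟨p, rfl⟩)

variable {L : Letters a θ}

/-- The product of the basis elements of a word lies in `Gc`. -/
theorem Gc_vW (hs : SymD a θ) {r : ℕ} (w : Fin r → Ltr L) :
    Gc ℚ (aT a (tyW (clsW w))) (tT θ (tyW (clsW w))) (cW (clsW w)) (vW w) := by
  classical
  have h0 : ∀ i : Col (cW (clsW w)), ∃ (j : Fin r) (v : MvPolynomial (BT (cW (clsW w)) i) ℚ),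
      (j : ℕ) = i ∧ Fil ℚ (aB (aT a (tyW (clsW w))) (cW (clsW w)) i)
        (tB (tT θ (tyW (clsW w))) (cW (clsW w)) i) 1 v ∧
        rename Subtype.val v = rename (Sigma.mk j) (vl (w j)) := by
    rintro ⟨i, hi⟩
    obtain ⟨s, _, rfl⟩ := mem_image.1 hi
    refine ⟨s.1, rename (eB (clsW w) s.1) (vl (w s.1)), rfl, ?_, ?_⟩
    · exact (Fil_equiv ℚ (eB (clsW w) s.1) (a := aB (aT a (tyW (clsW w))) (cW (clsW w)) _)
        (θ := tB (tT θ (tyW (clsW w))) (cW (clsW w)) _) (a' := aP a (cls (w s.1)))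
        (θ' := θP θ (cls (w s.1))) (fun _ _ => rfl) (fun _ => rfl) 1 _).2
        (L.fil _ _)
    · exact rename_rename (R := ℚ) (eB (clsW w) s.1)
        (Subtype.val : BT (cW (clsW w)) (s.1 : ℕ) → SW (clsW w)) (vl (w s.1))
  choose j v h1 h2 h3 using h0
  have hj : Function.Bijective j := by
    constructor
    · intro i i' h
      apply Subtype.ext
      rw [← h1, ← h1, h]
    · intro k
      obtain ⟨p⟩ := exists_Pt (cls_ne (w k))
      refine ⟨⟨(k : ℕ), mem_image.2 ⟨⟨k, p⟩, mem_univ _, rfl⟩⟩, ?_⟩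
      exact Fin.ext (h1 _)
  have h4 : vW w = ∏ i : Col (cW (clsW w)), rename Subtype.val (v i) := by
    unfold vW
    rw [← hj.prod_comp]
    exact prod_congr rfl fun i _ => (h3 i).symm
  rw [h4]
  exact Gc_prod (SymZ_typed hs _) (Zc_cW _ fun _ => cls_wt _) h2

end

end Vale.Agent.P066.Lab.LSW.H66
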